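import Vale.Agent.P181.DGx.H514.Lit
import Vale.Agent.P181.DG4a.Pol
import Vale.Agent.P181.DG0.Tr
import Vale.Agent.P181.SZR3.Split

set_option autoImplicit false

/-!
# P181, DG, D4: the case `D = 0` (splitting a large letter), graded by the small columns
-/

open MvPolynomial

namespace Vale.Agent.P181.DGz.H547

open Vale.Agent.P181.T4 (HW rowOp rowOp_apply mem_HW)
open Vale.Agent.P181.DG (PKT NT TransT)
open Vale.Agent.P181.DG.H514 (KerT KerStmt Dis0Stmt)
open Vale.Agent.P181.DG0 (mem_PKT)
open Vale.Agent.P181.DG4a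
open Vale.Agent.P181.SZR3
open Vale.Agent.P181.SZT0 (rc inj_pr rc_inj coeff_rc rc_mem_HW exists_equiv)

/-- The monomials of a polarisation, with the multiplicities of the list. -/
lemma exists_coeff_polL' {m : ℕ} {τ : Type} [DecidableEq τ] [Fintype τ] (c : τ) (L : List τ)
    (f : MvPolynomial (Fin m × τ) ℂ) (v : Fin m × τ →₀ ℕ) (h : coeff v (polL c L f) ≠ 0) :
    ∃ u, coeff u f ≠ 0 ∧ ∀ j, cdeg v j + (if c = j then L.length else 0) =
      cdeg u j + L.count j := exists_coeff_polL c L f v h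

/-- dimensions of quotients -/
lemma finrank_quot {E F : Type} [AddCommGroup E] [Module ℂ E] [AddCommGroup F] [Module ℂ F]
    (P K : Submodule ℂ E) (P' K' : Submodule ℂ F) [FiniteDimensional ℂ P]
    [FiniteDimensional ℂ P'] (hK : K ≤ P) (hK' : K' ≤ P') (L : E →ₗ[ℂ] F)
    (h1 : ∀ f ∈ P, L f ∈ P') (h2 : ∀ f ∈ P, L f ∈ K' → f ∈ K) :
    Module.finrank ℂ P + Module.finrank ℂ K' ≤ Module.finrank ℂ K + Module.finrank ℂ P' := by
  have : FiniteDimensional ℂ K := Submodule.finiteDimensional_of_le hK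
  have : FiniteDimensional ℂ K' := Submodule.finiteDimensional_of_le hK'
  let M : (P × K') →ₗ[ℂ] P' := LinearMap.coprod (L.restrict h1) (Submodule.inclusion hK')
  have hM := LinearMap.finrank_range_add_finrank_ker M
  rw [Module.finrank_prod] at hM
  have h3 : Module.finrank ℂ (LinearMap.range M) ≤ Module.finrank ℂ P' :=
    Submodule.finrank_le _
  have h4 : ∀ z : LinearMap.ker M, ((z.1.1 : P) : E) ∈ K := by
    intro z
    apply h2 _ z.1.1.2
    have h5 : M z.1 = 0 := z.2
    have h6 : L ((z.1.1 : P) : E) + ((z.1.2 : K') : F) = 0 := congrArg Subtype.val h5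
    rw [eq_neg_of_add_eq_zero_left h6]
    exact K'.neg_mem z.1.2.2
  let N : LinearMap.ker M →ₗ[ℂ] K := LinearMap.codRestrict K
    (P.subtype ∘ₗ LinearMap.fst ℂ P K' ∘ₗ (LinearMap.ker M).subtype) h4
  have hN : Function.Injective N := by
    rw [← LinearMap.ker_eq_bot, LinearMap.ker_eq_bot']
    intro z hz
    have h5 : ((z.1.1 : P) : E) = 0 := congrArg Subtype.val hz
    have h6 : L ((z.1.1 : P) : E) + ((z.1.2 : K') : F) = 0 := congrArg Subtype.val z.2
    rw [h5, map_zero, zero_add] at h6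
    apply Subtype.ext
    exact Prod.ext (Subtype.ext h5) (Subtype.ext h6)
  have h7 := LinearMap.finrank_le_finrank_of_injective hN
  omega

section ops

variable {m : ℕ} {τ τ' : Type} [Fintype τ] [DecidableEq τ] [Fintype τ'] [DecidableEq τ']

omit [Fintype τ] in
lemma polL_append (c : τ) (L L' : List τ) (f : MvPolynomial (Fin m × τ) ℂ) :
    polL c (L ++ L') f = polL c L (polL c L' f) := by
  induction L with
  | nil => rfl
  | cons a L ih => rw [List.cons_append, polL_cons, ih, polL_cons]

lemma mem_HW_polL (c : τ) (L : List τ) {mu : Fin m → ℕ} {f : MvPolynomial (Fin m × τ) ℂ}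
    (hf : f ∈ HW m τ mu) : polL c L f ∈ HW m τ mu := by
  induction L with
  | nil => exact hf
  | cons a L ih =>
    rw [polL_cons]
    have h := mem_HW_itD (a := a) (c := c) ih 1
    rwa [itD_succ, itD_zero] at h

omit [Fintype τ] in
lemma pderiv_colD {i : Fin m} {j a c : τ} (hj : a ≠ j) (f : MvPolynomial (Fin m × τ) ℂ) :
    pderiv (i, j) (colD a c f) = colD a c (pderiv (i, j) f) := by
  have h : ⁅(pderiv (i, j) : Derivation ℂ (MvPolynomial (Fin m × τ) ℂ)
      (MvPolynomial (Fin m × τ) ℂ)), (colD a c : Derivation ℂ (MvPolynomial (Fin m × τ) ℂ)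
      (MvPolynomial (Fin m × τ) ℂ))⁆ = 0 := by
    apply derivation_ext
    rintro ⟨k, l⟩
    rw [Derivation.commutator_apply, colD_X, pderiv_X', Derivation.zero_apply]
    have h1 : colD a c (if ((k, l) : Fin m × τ) = (i, j) then (1 : MvPolynomial (Fin m × τ) ℂ)
        else 0) = 0 := by
      split_ifs
      · exact Derivation.map_one_eq_zero _
      · exact map_zero _
    rw [h1, sub_zero]
    split_ifs
    · rw [pderiv_X', if_neg]
      intro h2
      exact hj (congrArg Prod.snd h2)
    · exact map_zero _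
  have h1 := congrArg (fun D => D f) h
  simp only [Derivation.commutator_apply, Derivation.zero_apply] at h1
  exact sub_eq_zero.1 h1

omit [Fintype τ] in
lemma pderiv_polL {i : Fin m} {j c : τ} (L : List τ) (hj : j ∉ L)
    (f : MvPolynomial (Fin m × τ) ℂ) :
    pderiv (i, j) (polL c L f) = polL c L (pderiv (i, j) f) := by
  induction L with
  | nil => rfl
  | cons a L ih =>
    rw [List.mem_cons, not_or] at hj
    rw [polL_cons, pderiv_colD (Ne.symm hj.1), ih hj.2, polL_cons]

/-- injectivity of the powers, without homogeneity in the other columns -/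
lemma itD_inj' {a c : τ} (hac : a ≠ c) {r n D : ℕ} (h : D + r ≤ n)
    {f : MvPolynomial (Fin m × τ) ℂ}
    (hf : ∀ v, coeff v f ≠ 0 → cdeg v a = r ∧ cdeg v c = n) (h0 : itD a c D f = 0) : f = 0 := by
  apply eq_zero_of_cp
  intro d
  by_cases hd : d a = r ∧ d c = n
  · have h1 : cp (mvu d a c D) (itD a c D f) = itD a c D (cp d f) := by
      apply cp_comm
      intro g v hv
      rw [← polL_replicate] at hv
      obtain ⟨u, hu, hu2⟩ := exists_coeff_polL' c _ g v hv
      refine ⟨u, hu, ?_⟩
      rw [List.length_replicate] at hu2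
      constructor
      · intro h3
        funext j
        have h4 := hu2 j
        rw [h3, List.count_replicate] at h4
        simp only [mvu] at h4
        by_cases h5 : j = a
        · subst h5
          simp [Ne.symm hac] at h4
          omega
        · by_cases h6 : j = c
          · subst h6
            simp [hac, Ne.symm hac] at h4
            omega
          · simp [h5, h6, Ne.symm h5, Ne.symm h6] at h4
            omega
      · intro h3
        funext j
        have h4 := hu2 j
        rw [h3, List.count_replicate] at h4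
        simp only [mvu]
        by_cases h5 : j = a
        · subst h5
          simp [Ne.symm hac] at h4 ⊢
          omega
        · by_cases h6 : j = c
          · subst h6
            simp [hac, Ne.symm hac] at h4 ⊢
            omega
          · simp [h5, h6, Ne.symm h5, Ne.symm h6] at h4 ⊢
            omega
    rw [h0, map_zero] at h1
    exact DG4a.itD_inj hac r D d _ (colH_cp d f) hd.1 (by omega) h1.symm
  · by_contra h1
    obtain ⟨v, hv⟩ := ne_zero_iff.1 h1
    obtain ⟨h2, h3⟩ := cdeg_of_coeff_cp hv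
    apply hd
    rw [← h2]
    exact hf v h3

end ops

section list

variable {α τ : Type} [DecidableEq α] [DecidableEq τ]

/-- the list with `w q` copies of `g q`, `q ∈ Q` -/
def LL (g : α → τ) (w : α → ℕ) (Q : List α) : List τ :=
  Q.flatMap fun q => List.replicate (w q) (g q)

omit [DecidableEq α] [DecidableEq τ] in
lemma LL_cons (g : α → τ) (w : α → ℕ) (q : α) (Q : List α) :
    LL g w (q :: Q) = List.replicate (w q) (g q) ++ LL g w Q := by
  rw [LL, List.flatMap_cons]
  rfl

omit [DecidableEq α] [DecidableEq τ] in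
lemma length_LL (g : α → τ) (w : α → ℕ) (Q : List α) :
    (LL g w Q).length = (Q.map w).sum := by
  induction Q with
  | nil => rfl
  | cons q Q ih => rw [LL_cons, List.length_append, List.length_replicate, ih, List.map_cons,
      List.sum_cons]

omit [DecidableEq α] [DecidableEq τ] in
lemma mem_LL {g : α → τ} {w : α → ℕ} {Q : List α} {x : τ} (h : x ∈ LL g w Q) :
    ∃ q ∈ Q, x = g q := by
  rw [LL, List.mem_flatMap] at h
  obtain ⟨q, hq, h⟩ := h
  exact ⟨q, hq, List.eq_of_mem_replicate h⟩

lemma count_LL {g : α → τ} (hg : Function.Injective g) (w : α → ℕ) {Q : List α}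
    (hQ : Q.Nodup) (q : α) : (LL g w Q).count (g q) = if q ∈ Q then w q else 0 := by
  induction Q with
  | nil => rfl
  | cons p Q ih =>
    rw [List.nodup_cons] at hQ
    rw [LL_cons, List.count_append, ih hQ.2, List.count_replicate]
    by_cases hp : p = q
    · subst hp
      simp [hQ.1]
    · have h1 : ¬ g p = g q := fun h => hp (hg h)
      simp [h1, Ne.symm hp]

omit [DecidableEq α] in
lemma count_LL_zero {g : α → τ} (w : α → ℕ) {Q : List α} {x : τ} (h : ∀ q, x ≠ g q) :
    (LL g w Q).count x = 0 := by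
  apply List.count_eq_zero_of_not_mem
  intro hx
  obtain ⟨q, _, hq⟩ := mem_LL hx
  exact h q hq

end list

section inj

variable {m : ℕ} {α τ : Type} [DecidableEq α] [Fintype τ] [DecidableEq τ]

/-- Polarisation into new columns is injective. -/
lemma polL_inj {c : τ} {g : α → τ} (hg : Function.Injective g) (hgc : ∀ q, g q ≠ c)
    (w : α → ℕ) (n : ℕ) : ∀ (Q : List α), Q.Nodup → (Q.map w).sum ≤ n →
    ∀ f : MvPolynomial (Fin m × τ) ℂ,
    (∀ v, coeff v f ≠ 0 → (∀ q, cdeg v (g q) = 0) ∧ cdeg v c = n) →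
    polL c (LL g w Q) f = 0 → f = 0 := by
  intro Q
  induction Q with
  | nil => exact fun _ _ f _ h0 => h0
  | cons q Q ih =>
    intro hQ hn f hf h0
    rw [List.nodup_cons] at hQ
    rw [List.map_cons, List.sum_cons] at hn
    apply ih hQ.2 (by omega) f hf
    rw [LL_cons, polL_append, polL_replicate] at h0
    refine itD_inj' (hgc q) (r := 0) (n := n - (Q.map w).sum) (D := w q) (by omega) ?_ h0
    intro v hv
    obtain ⟨u, hu, h1⟩ := exists_coeff_polL' c _ f v hv
    obtain ⟨h2, h3⟩ := hf u hu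
    constructor
    · have h4 := h1 (g q)
      rw [h2 q, count_LL hg w hQ.2, if_neg hQ.1, if_neg (Ne.symm (hgc q))] at h4
      omega
    · have h4 := h1 c
      rw [h3, if_pos rfl, length_LL, count_LL_zero w (fun p => Ne.symm (hgc p))] at h4
      omega

end inj

section map

variable {m n t : ℕ} {β : Type} [Fintype β] [DecidableEq β]

/-- the embedding of the columns -/
def io (n t : ℕ) (β : Type) : (Unit ⊕ β) ⊕ Fin t → (Option (Fin n) ⊕ β) ⊕ Fin t :=
  Sum.map (Sum.map (fun _ => none) id) id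

omit [Fintype β] [DecidableEq β] in
lemma io_inj : Function.Injective (io n t β) := by
  rintro ((⟨⟩ | b) | s) ((⟨⟩ | b') | s') h
  · rfl
  · exact absurd (Sum.inl_injective h) (by simp)
  · exact absurd h (by simp [io])
  · exact absurd (Sum.inl_injective h) (by simp)
  · have h1 : b = b' := Sum.inr_injective (Sum.inl_injective h)
    rw [h1]
  · exact absurd h (by simp [io])
  · exact absurd h (by simp [io])
  · exact absurd h (by simp [io])
  · have h1 : s = s' := Sum.inr_injective h
    rw [h1]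

/-- the new columns -/
def gg (n t : ℕ) (β : Type) (q : Fin n) : (Option (Fin n) ⊕ β) ⊕ Fin t := Sum.inl (Sum.inl (some q))

/-- the split column -/
def c0 (n t : ℕ) (β : Type) : (Option (Fin n) ⊕ β) ⊕ Fin t := Sum.inl (Sum.inl none)

omit [Fintype β] [DecidableEq β] in
lemma gg_inj : Function.Injective (gg n t β) := fun _ _ h =>
  Option.some_injective _ (Sum.inl_injective (Sum.inl_injective h))

omit [Fintype β] [DecidableEq β] in
lemma gg_ne (q : Fin n) : gg n t β q ≠ c0 n t β := fun h =>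
  absurd (Sum.inl_injective (Sum.inl_injective h)) (by simp)

omit [Fintype β] [DecidableEq β] in
lemma gg_notMem (q : Fin n) : gg n t β q ∉ Set.range (io n t β) := by
  rintro ⟨(⟨⟩ | b) | s, h⟩
  · exact absurd (Sum.inl_injective (Sum.inl_injective h)) (by simp)
  · exact absurd (Sum.inl_injective h) (by simp)
  · exact absurd h (by simp [io, gg])

/-- the list of the moved units -/
def LQ (n t : ℕ) (β : Type) (w : Fin n → ℕ) : List ((Option (Fin n) ⊕ β) ⊕ Fin t) :=
  LL (gg n t β) w (List.finRange n)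

omit [Fintype β] [DecidableEq β] in
lemma length_LQ (w : Fin n → ℕ) : (LQ n t β w).length = ∑ q, w q := by
  rw [LQ, length_LL, Fin.sum_univ_def]

omit [Fintype β] in
lemma count_LQ (w : Fin n → ℕ) (q : Fin n) :
    @List.count _ instBEqOfDecidableEq (gg n t β q) (LQ n t β w) = w q := by
  rw [LQ, count_LL gg_inj w (List.nodup_finRange n), if_pos (List.mem_finRange q)]

omit [Fintype β] in
lemma count_LQ_zero (w : Fin n → ℕ) {j : (Option (Fin n) ⊕ β) ⊕ Fin t}
    (h : ∀ q, j ≠ gg n t β q) : @List.count _ instBEqOfDecidableEq j (LQ n t β w) = 0 :=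
  count_LL_zero w h

/-- **The splitting map.** -/
noncomputable def Ph (m n t : ℕ) (β : Type) [DecidableEq β] (w : Fin n → ℕ) :
    MvPolynomial (Fin m × ((Unit ⊕ β) ⊕ Fin t)) ℂ →ₗ[ℂ]
      MvPolynomial (Fin m × ((Option (Fin n) ⊕ β) ⊕ Fin t)) ℂ :=
  polL (c0 n t β) (LQ n t β w) ∘ₗ (rn (io n t β)).toLinearMap

omit [Fintype β] in
lemma Ph_apply (w : Fin n → ℕ) (f : MvPolynomial (Fin m × ((Unit ⊕ β) ⊕ Fin t)) ℂ) :
    Ph m n t β w f = polL (c0 n t β) (LQ n t β w) (rn (io n t β) f) := rfl

omit [Fintype β] [DecidableEq β] in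
/-- the monomials of the renamed polynomial -/
lemma coeff_io {f : MvPolynomial (Fin m × ((Unit ⊕ β) ⊕ Fin t)) ℂ}
    {v : Fin m × ((Option (Fin n) ⊕ β) ⊕ Fin t) →₀ ℕ} (h : coeff v (rn (io n t β) f) ≠ 0) :
    ∃ u, coeff u f ≠ 0 ∧ (∀ y, cdeg v (io n t β y) = cdeg u y) ∧
      ∀ q, cdeg v (gg n t β q) = 0 := by
  obtain ⟨u, hu, h1, h2⟩ := coeff_rc io_inj h
  refine ⟨u, hu, fun y => Finset.sum_congr rfl fun i _ => h1 i y, fun q => ?_⟩
  exact Finset.sum_eq_zero fun i _ => h2 i _ (gg_notMem q)

/-- the monomials of the image -/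
lemma coeff_Ph {w : Fin n → ℕ} {f : MvPolynomial (Fin m × ((Unit ⊕ β) ⊕ Fin t)) ℂ}
    {v : Fin m × ((Option (Fin n) ⊕ β) ⊕ Fin t) →₀ ℕ} (h : coeff v (Ph m n t β w f) ≠ 0) :
    ∃ u, coeff u f ≠ 0 ∧ (cdeg v (c0 n t β) + ∑ q, w q = cdeg u (Sum.inl (Sum.inl ()))) ∧
      (∀ q, cdeg v (gg n t β q) = w q) ∧
      (∀ r, cdeg v (Sum.inl (Sum.inr r)) = cdeg u (Sum.inl (Sum.inr r))) ∧
      ∀ s, cdeg v (Sum.inr s) = cdeg u (Sum.inr s) := by
  rw [Ph_apply] at h
  obtain ⟨u1, hu1, h1⟩ := exists_coeff_polL' _ _ _ v h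
  obtain ⟨u, hu, h2, h3⟩ := coeff_io hu1
  refine ⟨u, hu, ?_, fun q => ?_, fun r => ?_, fun s => ?_⟩
  · have h4 := h1 (c0 n t β)
    rw [if_pos rfl, length_LQ, count_LQ_zero w (fun q => Ne.symm (gg_ne q)), add_zero] at h4
    rw [h4]
    exact h2 (Sum.inl (Sum.inl ()))
  · have h4 := h1 (gg n t β q)
    rw [if_neg (Ne.symm (gg_ne q)), count_LQ, h3, add_zero, zero_add] at h4
    exact h4
  · have h4 := h1 (Sum.inl (Sum.inr r))
    rw [if_neg (by simp [c0]), count_LQ_zero w (by simp [gg]), add_zero, add_zero] at h4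
    rw [h4]
    exact h2 (Sum.inl (Sum.inr r))
  · have h4 := h1 (Sum.inr s)
    rw [if_neg (by simp [c0]), count_LQ_zero w (by simp [gg]), add_zero, add_zero] at h4
    rw [h4]
    exact h2 (Sum.inr s)

/-- injectivity -/
lemma Ph_inj {w : Fin n → ℕ} {N : ℕ} (hN : ∑ q, w q ≤ N)
    {f : MvPolynomial (Fin m × ((Unit ⊕ β) ⊕ Fin t)) ℂ}
    (hf : ∀ u, coeff u f ≠ 0 → cdeg u (Sum.inl (Sum.inl ())) = N)
    (h0 : Ph m n t β w f = 0) : f = 0 := by
  rw [Ph_apply] at h0
  have h1 : rn (io n t β) f = 0 := by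
    refine polL_inj gg_inj gg_ne w N (List.finRange n) (List.nodup_finRange n) ?_ _ ?_ h0
    · rw [← Fin.sum_univ_def]
      exact hN
    · intro v hv
      obtain ⟨u, hu, h2, h3⟩ := coeff_io hv
      exact ⟨h3, (h2 (Sum.inl (Sum.inl ()))).trans (hf u hu)⟩
  exact (map_eq_zero_iff _ (rc_inj io_inj)).1 h1

variable {S : ℕ} {d1 : Unit ⊕ β → ℕ} {d2 : Option (Fin n) ⊕ β → ℕ} {mu : Fin m → ℕ}

/-- the image is in the target -/
lemma Ph_mem {w : Fin n → ℕ} (hd0 : d1 (Sum.inl ()) = d2 (Sum.inl none) + ∑ q, w q)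
    (hdr : ∀ r, d1 (Sum.inr r) = d2 (Sum.inr r)) (hdw : ∀ q, d2 (Sum.inl (some q)) = w q)
    (hG : ∀ e : Equiv.Perm (Option (Fin n) ⊕ β), (∀ j, d2 (e j) = d2 j) →
      ∀ j : Option (Fin n), e (Sum.inl j) = Sum.inl j)
    {f : MvPolynomial (Fin m × ((Unit ⊕ β) ⊕ Fin t)) ℂ}
    (hf : f ∈ PKT m S (Unit ⊕ β) d1 t mu) :
    Ph m n t β w f ∈ PKT m S (Option (Fin n) ⊕ β) d2 t mu := by
  rw [mem_PKT] at hf ⊢
  obtain ⟨h1, h2, h3, h4⟩ := hf
  refine ⟨?_, ?_, ?_, ?_⟩
  · exact mem_HW_polL _ _ ((rc_mem_HW io_inj).2 h1)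
  · intro v hv
    obtain ⟨u, hu, h5, h6, h7, h8⟩ := coeff_Ph hv
    obtain ⟨h9, h10⟩ := h2 u hu
    constructor
    · rintro ((_ | q) | r)
      · have h11 := h9 (Sum.inl ())
        rw [hd0] at h11
        have h12 : cdeg u (Sum.inl (Sum.inl ())) = d2 (Sum.inl none) + ∑ q, w q := h11
        have h13 : cdeg v (c0 n t β) = d2 (Sum.inl none) := by omega
        exact h13
      · rw [hdw]
        exact h6 q
      · rw [← hdr]
        exact (h7 r).trans (h9 (Sum.inr r))
    · intro s
      exact lt_of_eq_of_lt (h8 s) (h10 s)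
  · intro e s he
    have hG' := hG e he
    have h5 : Set.MapsTo e (Set.range Sum.inl) (Set.range Sum.inl) := by
      rintro _ ⟨j, rfl⟩
      exact ⟨j, (hG' j).symm⟩
    obtain ⟨⟨e1, e2⟩, h6⟩ := Equiv.Perm.mem_sumCongrHom_range_of_perm_mapsTo_inl h5
    have h7 : ∀ r, e (Sum.inr r) = Sum.inr (e2 r) := by
      intro r
      rw [← h6]
      rfl
    have h8 : Function.Injective (Sum.map e s : (Option (Fin n) ⊕ β) ⊕ Fin t → _) :=
      Function.Injective.sumMap e.injective s.injective
    have h9 := rn_polL (m := m) (Sum.map e s) (c0 n t β) (fun x hx => h8 hx) (LQ n t β w)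
      (rn (io n t β) f)
    have h10 : (LQ n t β w).map (Sum.map e s) = LQ n t β w := by
      conv_rhs => rw [← List.map_id (LQ n t β w)]
      apply List.map_congr_left
      intro y hy
      obtain ⟨q, _, rfl⟩ := mem_LL hy
      show Sum.inl (e (Sum.inl (some q))) = _
      rw [hG']
      rfl
    have h11 : (Sum.map e s (c0 n t β) : (Option (Fin n) ⊕ β) ⊕ Fin t) = c0 n t β := by
      show Sum.inl (e (Sum.inl none)) = _
      rw [hG']
      rfl
    have h12 : rn (m := m) (Sum.map e s) (rn (io n t β) f) = rn (io n t β) f := by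
      have h13 := h3 (Equiv.sumCongr (Equiv.refl Unit) e2) s (by
        rintro (⟨⟩ | r)
        · rfl
        · show d1 (Sum.inr (e2 r)) = _
          rw [hdr, hdr, ← h7, he])
      have h14 : rn (m := m) (Sum.map (Equiv.sumCongr (Equiv.refl Unit) e2) s) f = f := h13
      conv_rhs => rw [← h14]
      rw [rn_rn, rn_rn]
      congr 2
      funext y
      rcases y with (⟨⟩ | r) | s'
      · show Sum.inl (e (Sum.inl none)) = _
        rw [hG']
        rfl
      · show Sum.inl (e (Sum.inr r)) = _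
        rw [h7]
        rfl
      · rfl
    rw [h10, h11, h12] at h9
    exact h9
  · intro i
    have h5 : ∀ j : Fin t, pderiv (i, (Sum.inr j : (Option (Fin n) ⊕ β) ⊕ Fin t))
        (Ph m n t β w f) = Ph m n t β w (pderiv (i, Sum.inr j) f) := by
      intro j
      rw [Ph_apply, pderiv_polL]
      · rw [Ph_apply]
        congr 1
        exact pderiv_rename (inj_pr io_inj) (i, Sum.inr j) f
      · intro h
        obtain ⟨q, _, h6⟩ := mem_LL h
        exact absurd h6 (by simp [gg])
    rw [Finset.sum_congr rfl fun j _ => h5 j, ← map_sum, h4 i, map_zero]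

/-- the kernel of the quotient map -/
lemma Ph_ker {w : Fin n → ℕ} (hd0 : d1 (Sum.inl ()) = d2 (Sum.inl none) + ∑ q, w q)
    {f : MvPolynomial (Fin m × ((Unit ⊕ β) ⊕ Fin (t + 1))) ℂ}
    (hf : f ∈ PKT m S (Unit ⊕ β) d1 (t + 1) mu)
    (h : Ph m n (t + 1) β w f ∈ KerT m S (Option (Fin n) ⊕ β) d2 t mu) :
    f ∈ KerT m S (Unit ⊕ β) d1 t mu := by
  classical
  refine ⟨hf, fun v hv => ?_⟩
  by_contra hno
  push Not at hno
  have hv1 : cdeg v (Sum.inl (Sum.inl ())) = d2 (Sum.inl none) + ∑ q, w q :=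
    (((mem_PKT.1 hf).2.1 v hv).1 (Sum.inl ())).trans hd0
  let d' : (Option (Fin n) ⊕ β) ⊕ Fin (t + 1) → ℕ := fun
    | .inl (.inl none) => d2 (Sum.inl none)
    | .inl (.inl (some q)) => w q
    | .inl (.inr r) => cdeg v (.inl (.inr r))
    | .inr s => cdeg v (.inr s)
  have h1 : cp d' (Ph m n (t + 1) β w f) = Ph m n (t + 1) β w (cp (cdeg v) f) := by
    apply cp_comm
    intro g v' hv'
    obtain ⟨u, hu, h5, h6, h7, h8⟩ := coeff_Ph hv'
    refine ⟨u, hu, ?_⟩
    constructor
    · intro h9
      funext y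
      rcases y with (⟨⟩ | r) | s
      · rw [hv1, ← h5, h9]
        rfl
      · rw [← h7, h9]
      · rw [← h8, h9]
    · intro h9
      funext y
      rcases y with ((_ | q) | r) | s
      · have h10 : cdeg v' (c0 n (t + 1) β) = d2 (Sum.inl none) := by
          rw [h9, hv1] at h5
          omega
        exact h10
      · exact h6 q
      · rw [h7, h9]
      · rw [h8, h9]
  have h2 : cp d' (Ph m n (t + 1) β w f) = 0 := by
    apply MvPolynomial.ext
    intro v'
    rw [coeff_zero]
    by_contra hv'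
    obtain ⟨h3, h4⟩ := cdeg_of_coeff_cp hv'
    obtain ⟨j, hj⟩ := h.2 v' h4
    have h5 : cdeg v' (Sum.inr j) = cdeg v (Sum.inr j) := by rw [h3]
    exact hno j (h5.symm.trans hj)
  rw [h2] at h1
  have h3 : cp (cdeg v) f = 0 := by
    refine Ph_inj (N := d2 (Sum.inl none) + ∑ q, w q) (by omega) ?_ h1.symm
    intro u hu
    rw [(cdeg_of_coeff_cp hu).1]
    exact hv1
  apply hv
  have h4 := congrArg (coeff v) h3
  rw [coeff_cp, if_pos rfl, coeff_zero] at h4
  exact h4

end map

/-- the degrees before the splitting -/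
noncomputable def e1 (U rho : Multiset ℕ) (x : ℕ) : Unit ⊕ Fin rho.toList.length → ℕ
  | .inl _ => x + U.sum
  | .inr r => rho.toList.get r

lemma map_e1 (U rho : Multiset ℕ) (x : ℕ) :
    (Finset.univ : Finset (Unit ⊕ Fin rho.toList.length)).val.map (e1 U rho x) =
      (x + U.sum) ::ₘ rho := by
  have h6 : (Finset.univ : Finset (Fin rho.toList.length)).val.map
      (fun r => e1 U rho x (.inr r)) = rho := map_univ_toList rho
  rw [← Finset.univ_disjSum_univ, Finset.val_disjSum, Multiset.disjSum, Multiset.map_add,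
    Multiset.map_map, Multiset.map_map]
  have h7 : Multiset.map (e1 U rho x ∘ Sum.inr) (Finset.univ : Finset (Fin rho.toList.length)).val
      = rho := h6
  rw [h7]
  rfl

lemma map_d2 (U rho : Multiset ℕ) (x : ℕ) :
    (Finset.univ : Finset (Option (Fin U.toList.length) ⊕ Fin rho.toList.length)).val.map
      (d2 U rho x) = (x ::ₘ U) + rho := by
  rw [map_sum_val]
  have h5 : (Finset.univ : Finset (Fin U.toList.length)).val.map
      (fun q => d2 U rho x (.inl (some q))) = U := map_univ_toList U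
  have h6 : (Finset.univ : Finset (Fin rho.toList.length)).val.map
      (fun r => d2 U rho x (.inr r)) = rho := map_univ_toList rho
  rw [h5, h6, Multiset.cons_add]
  rfl

/-- **[0]** -/
theorem dis0 (hK : KerStmt) : Dis0Stmt := by
  classical
  intro m S mu rho A k t hS hk hA hA2 hkA
  obtain ⟨x, hx⟩ : ∃ x, x ∈ A := by
    apply Multiset.exists_mem_of_ne_zero
    rintro rfl
    rw [Multiset.sum_zero] at hkA
    omega
  obtain ⟨U, rfl⟩ := Multiset.exists_cons_of_mem hx
  rw [Multiset.nodup_cons] at hA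
  rw [Multiset.sum_cons] at hkA
  have hxr : x ∉ rho := (hA2 x hx).2.1
  have hUr : ∀ y ∈ U, y ∉ rho := fun y hy => (hA2 y (Multiset.mem_cons_of_mem hy)).2.1
  have hUx : ∀ y ∈ U, y ≠ x := fun y hy h => hA.1 (h ▸ hy)
  let σ := Option (Fin U.toList.length) ⊕ Fin rho.toList.length
  have hUnd : U.toList.Nodup := by
    rw [← Multiset.coe_nodup, Multiset.coe_toList]
    exact hA.2
  have hG : ∀ e : Equiv.Perm σ, (∀ j, d2 U rho x (e j) = d2 U rho x j) →
      ∀ j : Option (Fin U.toList.length), e (.inl j) = .inl j := by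
    intro e he j
    have h := he (.inl j)
    rcases j with _ | q
    · rcases hj : e (.inl none) with (_ | q') | r
      · rfl
      · rw [hj] at h
        exact absurd h (hUx _ (get_mem U q'))
      · rw [hj] at h
        have h' : rho.toList.get r = x := h
        exact absurd (h' ▸ get_mem rho r) hxr
    · rcases hj : e (.inl (some q)) with (_ | q') | r
      · rw [hj] at h
        exact absurd h.symm (hUx _ (get_mem U q))
      · rw [hj] at h
        have h' : q' = q := List.nodup_iff_injective_get.1 hUnd h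
        rw [h']
      · rw [hj] at h
        have h' : rho.toList.get r = U.toList.get q := h
        exact absurd (h' ▸ get_mem rho r) (hUr _ (get_mem U q))
  have hd0 : e1 U rho x (Sum.inl ()) = d2 U rho x (Sum.inl none) +
      ∑ q : Fin U.toList.length, U.toList.get q := by
    have h1 : ∑ q : Fin U.toList.length, U.toList.get q =
        ((Finset.univ : Finset (Fin U.toList.length)).val.map (fun j => U.toList.get j)).sum :=
      rfl
    rw [h1, map_univ_toList]
    rfl
  have h1 := finrank_quot (PKT m S (Unit ⊕ Fin rho.toList.length) (e1 U rho x) (t + 1) mu)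
    (KerT m S (Unit ⊕ Fin rho.toList.length) (e1 U rho x) t mu)
    (PKT m S σ (d2 U rho x) (t + 1) mu) (KerT m S σ (d2 U rho x) t mu)
    (fun f hf => hf.1) (fun f hf => hf.1)
    (Ph m U.toList.length (t + 1) (Fin rho.toList.length) fun q => U.toList.get q)
    (fun f hf => Ph_mem hd0 (fun r => rfl) (fun q => rfl) hG hf)
    (fun f hf h => Ph_ker hd0 hf h)
  rw [hK m S _ _ t mu (by omega), hK m S _ _ t mu (by omega), DG0.transT, DG0.transT,
    DG0.transT, DG0.transT, map_e1, map_d2] at h1
  rw [hkA]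
  exact h1

end Vale.Agent.P181.DGz.H547
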